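import Mathlib
import Vale.Agent.Lib.P227L.Approx3
import Vale.Agent.Lib.P248.PL4

/-!
# Volumes along rays: polynomials, concavity, and limits
-/

open MeasureTheory Set Filter Topology
open scoped ENNReal Matrix Pointwise

namespace Vale.Agent.Lib.P227L

variable {ι : Type} [Fintype ι] [DecidableEq ι] {h g F : (ι → ℝ) → ℝ} {ξ : ι → ℝ}

lemma matM_lin (hh : IsHom2 h) (hg : IsHom2 g) (τ : ℝ) (hξ : ξ ≠ 0) :
    matM h (lin h g τ) ξ = matM h h ξ + τ • matM h g ξ := by
  have := matM_comb hh hg (IsHom2.isHom2_zero (ι := ι)) τ 0 hξ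
  rwa [comb_zero_right, zero_smul, add_zero] at this

/-- The volume along a ray is a polynomial of degree at most the dimension. -/
theorem vol_lin_poly [Nonempty ι] (hh : IsC2Plus h) (hg : IsHom2 g)
    (hall : ∀ τ : ℝ, 0 ≤ τ → IsC2Plus (lin h g τ)) :
    ∃ q : Polynomial ℝ, q.natDegree ≤ Fintype.card ι ∧
      ∀ τ : ℝ, IsC2Plus (lin h g τ) → Vol (lin h g τ) = q.eval τ := by
  set n := Fintype.card ι with hn
  set S : Finset ℕ := Finset.range (n + 1) with hS
  have hScard : S.card = Fintype.card ι + 1 := by simp [hS, hn]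
  set nd : ℕ → ℝ := fun k => (k : ℝ) with hnd
  have hinj : Set.InjOn nd S := by
    intro i _ j _ hij
    simp only [hnd] at hij
    exact_mod_cast hij
  have hform : ∀ τ : ℝ, IsC2Plus (lin h g τ) → Vol (lin h g τ)
      = ∫ ξ in pball h, (matM h h ξ + τ • matM h g ξ).det := by
    intro τ hτ
    rw [vol_eq_integral hτ hh]
    apply setIntegral_congr_fun (measurableSet_pball hh)
    intro ξ hξ
    simp only
    rw [matM_lin hh.toIsHom2 hg τ hξ.1]
  have hint : ∀ τ : ℝ, IsC2Plus (lin h g τ) →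
      IntegrableOn (fun ξ => (matM h h ξ + τ • matM h g ξ).det) (pball h) := by
    intro τ hτ
    apply (integrableOn_det hτ hh).congr_fun _ (measurableSet_pball hh)
    intro ξ hξ
    simp only
    rw [matM_lin hh.toIsHom2 hg τ hξ.1]
  have hnode : ∀ k, IsC2Plus (lin h g (nd k)) := fun k => hall _ (by simp [hnd])
  refine ⟨∑ k ∈ S, Polynomial.C (Vol (lin h g (nd k))) * Lagrange.basis S nd k, ?_, ?_⟩
  · refine Polynomial.natDegree_sum_le_of_forall_le _ _ fun k hk => ?_
    refine (Polynomial.natDegree_C_mul_le _ _).trans ?_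
    rw [Lagrange.natDegree_basis hinj hk, hScard]
    omega
  · intro τ hτ
    rw [hform τ hτ]
    have hpt : ∀ ξ, (matM h h ξ + τ • matM h g ξ).det
        = ∑ k ∈ S, (matM h h ξ + nd k • matM h g ξ).det * (Lagrange.basis S nd k).eval τ :=
      fun ξ => det_lagrange _ _ hScard hinj τ
    simp_rw [hpt]
    rw [integral_finset_sum _ fun k _ => (hint _ (hnode k)).mul_const _, Polynomial.eval_finset_sum]
    refine Finset.sum_congr rfl fun k _ => ?_
    rw [integral_mul_const, hform _ (hnode k), Polynomial.eval_mul, Polynomial.eval_C]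

omit [Fintype ι] [DecidableEq ι] in
lemma T1_poly (p : Polynomial ℝ) :
    T1 (fun τ => p.eval τ) (p.coeff 0) (p.coeff 1) (p.coeff 2) := by
  obtain ⟨M, hM0, hM⟩ := exists_poly_bound p.divX.divX.divX
  refine ⟨M, 1, one_pos, fun τ hτ => ?_⟩
  simp only
  rw [poly_expand p τ]
  have e : p.coeff 0 + p.coeff 1 * τ + p.coeff 2 * τ ^ 2 + τ ^ 3 * p.divX.divX.divX.eval τ
      - (p.coeff 0 + p.coeff 1 * τ + p.coeff 2 * τ ^ 2) = τ ^ 3 * p.divX.divX.divX.eval τ := by
    ring
  rw [e, abs_mul, abs_pow, mul_comm]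
  exact mul_le_mul_of_nonneg_right (hM τ hτ) (by positivity)

/-- The coefficients of the polynomial. -/
lemma coeffs_of_poly [Nonempty ι] (hh : IsC2Plus h) (hg : IsHom2 g) {q : Polynomial ℝ}
    (hq : ∀ τ : ℝ, IsC2Plus (lin h g τ) → Vol (lin h g τ) = q.eval τ) :
    Vol h = q.coeff 0 ∧ c1 h g = q.coeff 1 ∧ c2 h g = q.coeff 2 := by
  obtain ⟨ρ, hρ, hp⟩ := exists_lin_plus hh hg
  have h1 : T1 (fun τ => Vol (lin h g τ)) (q.coeff 0) (q.coeff 1) (q.coeff 2) := by
    rw [T1_iff]
    refine (T1_iff.1 (T1_poly q)).of_eq hρ fun τ hτ => ?_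
    rw [hq τ (hp τ hτ)]
  exact (T1_lin hh hg).unique h1

omit [Fintype ι] [DecidableEq ι] in
/-- Limits of polynomials of bounded degree. -/
lemma poly_limit {n : ℕ} (q : ℕ → Polynomial ℝ) (hdeg : ∀ m, (q m).natDegree ≤ n) (φ : ℝ → ℝ)
    (hlim : ∀ k : ℕ, k ≤ n → Tendsto (fun m => (q m).eval (k : ℝ)) atTop (𝓝 (φ k))) :
    ∃ Q : Polynomial ℝ, Q.natDegree ≤ n ∧
      (∀ j, Tendsto (fun m => (q m).coeff j) atTop (𝓝 (Q.coeff j))) ∧
      ∀ τ, Tendsto (fun m => (q m).eval τ) atTop (𝓝 (Q.eval τ)) := by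
  set S : Finset ℕ := Finset.range (n + 1) with hS
  have hScard : S.card = n + 1 := by simp [hS]
  set nd : ℕ → ℝ := fun k => (k : ℝ) with hnd
  have hinj : Set.InjOn nd S := by
    intro i _ j _ hij
    simp only [hnd] at hij
    exact_mod_cast hij
  have hexp : ∀ m, q m = ∑ k ∈ S, Polynomial.C ((q m).eval (nd k)) * Lagrange.basis S nd k := by
    intro m
    have hd : (q m).degree < (S.card : WithBot ℕ) := by
      have h3 : (q m).natDegree < S.card := by
        have := hdeg m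
        omega
      exact Polynomial.degree_le_natDegree.trans_lt (by exact_mod_cast h3)
    have h4 := Lagrange.eq_interpolate hinj hd
    rw [Lagrange.interpolate_apply] at h4
    exact h4
  have hmem : ∀ k ∈ S, Tendsto (fun m => (q m).eval (nd k)) atTop (𝓝 (φ (nd k))) := by
    intro k hk
    have : k ≤ n := by
      have := Finset.mem_range.1 hk
      omega
    exact hlim k this
  refine ⟨∑ k ∈ S, Polynomial.C (φ (nd k)) * Lagrange.basis S nd k, ?_, ?_, ?_⟩
  · refine Polynomial.natDegree_sum_le_of_forall_le _ _ fun k hk => ?_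
    refine (Polynomial.natDegree_C_mul_le _ _).trans ?_
    rw [Lagrange.natDegree_basis hinj hk, hScard]
    omega
  · intro j
    have e : ∀ m, (q m).coeff j = ∑ k ∈ S, (q m).eval (nd k) * (Lagrange.basis S nd k).coeff j := by
      intro m
      conv_lhs => rw [hexp m]
      simp [Polynomial.finset_sum_coeff]
    simp_rw [e]
    have e2 : (∑ k ∈ S, Polynomial.C (φ (nd k)) * Lagrange.basis S nd k).coeff j
        = ∑ k ∈ S, φ (nd k) * (Lagrange.basis S nd k).coeff j := by
      simp [Polynomial.finset_sum_coeff]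
    rw [e2]
    exact tendsto_finset_sum _ fun k hk => (hmem k hk).mul_const _
  · intro τ
    have e : ∀ m, (q m).eval τ = ∑ k ∈ S, (q m).eval (nd k) * (Lagrange.basis S nd k).eval τ := by
      intro m
      conv_lhs => rw [hexp m]
      simp [Polynomial.eval_finset_sum]
    simp_rw [e]
    have e2 : (∑ k ∈ S, Polynomial.C (φ (nd k)) * Lagrange.basis S nd k).eval τ
        = ∑ k ∈ S, φ (nd k) * (Lagrange.basis S nd k).eval τ := by
      simp [Polynomial.eval_finset_sum]
    rw [e2]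
    exact tendsto_finset_sum _ fun k hk => (hmem k hk).mul_const _

/-! ### Logarithmic concavity -/

omit [DecidableEq ι] in
/-- The volume of Wulff sets is logarithmically concave. -/
theorem Vol_rpow_le {f₀ f₁ : (ι → ℝ) → ℝ} {θ : ℝ} (h0 : 0 < θ) (h1 : θ < 1)
    (hfin : volume (wulff fun u => θ * f₀ u + (1 - θ) * f₁ u) ≠ ∞)
    (hfin₀ : volume (wulff f₀) ≠ ∞) (hfin₁ : volume (wulff f₁) ≠ ∞) :
    Vol f₀ ^ θ * Vol f₁ ^ (1 - θ) ≤ Vol fun u => θ * f₀ u + (1 - θ) * f₁ u := by
  have key := Vale.Agent.Lib.P248.brunn_minkowski_mul (isClosed_wulff f₀).measurableSet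
    (isClosed_wulff f₁).measurableSet
    (isClosed_wulff fun u => θ * f₀ u + (1 - θ) * f₁ u).measurableSet h0 h1 (by
      intro x hx y hy u
      have h2 := hx u
      have h3 := hy u
      have e : (θ • x + (1 - θ) • y) ⬝ᵥ u = θ * (x ⬝ᵥ u) + (1 - θ) * (y ⬝ᵥ u) := by
        simp [add_dotProduct, smul_dotProduct]
      rw [e]
      have h4 : 0 < 1 - θ := by linarith
      exact add_le_add (mul_le_mul_of_nonneg_left h2 h0.le) (mul_le_mul_of_nonneg_left h3 h4.le))
  have h5 := ENNReal.toReal_mono hfin key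
  rw [ENNReal.toReal_mul, ← ENNReal.toReal_rpow, ← ENNReal.toReal_rpow] at h5
  exact h5

variable [Nonempty ι]

omit [Nonempty ι] in
/-- Nonnegative perturbations have larger volume. -/
lemma lin_compact_of_nonneg (hh : IsC2Plus h) (hF : IsHom2 F) {τ : ℝ} (hτ : 0 ≤ τ) :
    IsCompact (wulff (lin h F τ)) := by
  obtain ⟨C, hC0, hC⟩ := exists_rel_val hh hF
  refine finite_of_le hh (c := 1 + τ * C) (by positivity) fun u => ?_
  simp only [lin]
  have h1 := (le_abs_self _).trans (hC u)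
  have h2 : τ * F u ≤ τ * (C * h u) := mul_le_mul_of_nonneg_left h1 hτ
  nlinarith

/-- The tangent line inequality. -/
theorem log_Vol_tangent (hh : IsC2Plus h) (hF : IsHom2 F) (hF0 : ∀ x, 0 ≤ F x) {τ : ℝ} (hτ : 0 ≤ τ) :
    0 < Vol (lin h F τ) ∧
      Real.log (Vol (lin h F τ)) ≤ Real.log (Vol h) + τ * (c1 h F / Vol h) := by
  have hV := hh.Vol_pos
  have hpos : ∀ σ : ℝ, 0 ≤ σ → Vol h ≤ Vol (lin h F σ) := by
    intro σ hσ
    apply Vol_mono _ (lin_compact_of_nonneg hh hF hσ).measure_lt_top.ne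
    intro u
    simp only [lin]
    have := mul_nonneg hσ (hF0 u)
    linarith
  refine ⟨hV.trans_le (hpos τ hτ), ?_⟩
  rcases hτ.eq_or_lt with h0 | h0
  · subst h0
    have e : lin h F 0 = h := by
      funext x
      simp [lin]
    rw [e]
    simp
  have hL := (T1_lin hh hF).log hV
  obtain ⟨K, ρ, hK, hρ, hb⟩ := hL.nonneg_const
  set c' := c2 h F / Vol h - c1 h F ^ 2 / (2 * Vol h ^ 2) with hc'
  set X := Real.log (Vol (lin h F τ)) - Real.log (Vol h) with hX
  -- the inequality for small `s`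
  have hs : ∀ s : ℝ, 0 < s → s < 1 → s * τ ≤ ρ →
      X ≤ τ * (c1 h F / Vol h) + c' * s * τ ^ 2 + K * s ^ 2 * τ ^ 3 := by
    intro s hs0 hs1 hsρ
    have h1s : 0 < 1 - s := by linarith
    have hst : 0 ≤ s * τ := by positivity
    have e1 : lin h F (s * τ) = fun u => (1 - s) * h u + (1 - (1 - s)) * lin h F τ u := by
      funext u
      simp only [lin]
      ring
    have hconc := Vol_rpow_le (f₀ := h) (f₁ := lin h F τ) (θ := 1 - s) h1s (by linarith)
      (by
        rw [← e1]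
        exact (lin_compact_of_nonneg hh hF hst).measure_lt_top.ne)
      hh.volume_wulff_lt_top.ne (lin_compact_of_nonneg hh hF hτ).measure_lt_top.ne
    rw [← e1] at hconc
    have hτV := hV.trans_le (hpos τ hτ)
    have hstV := hV.trans_le (hpos _ hst)
    have hlog := Real.log_le_log (by positivity) hconc
    rw [Real.log_mul (by positivity) (by positivity), Real.log_rpow hV, Real.log_rpow hτV] at hlog
    have hb1 := abs_le.1 (hb (s * τ) (by rw [abs_of_nonneg hst]; exact hsρ))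
    rw [abs_of_nonneg hst] at hb1
    have e3 : 1 - (1 - s) = s := by ring
    rw [e3] at hlog
    have h6 : s * X ≤ s * (τ * (c1 h F / Vol h) + c' * s * τ ^ 2 + K * s ^ 2 * τ ^ 3) := by
      have e4 : s * X = s * Real.log (Vol (lin h F τ)) - s * Real.log (Vol h) := by
        rw [hX]
        ring
      have e5 : s * (τ * (c1 h F / Vol h) + c' * s * τ ^ 2 + K * s ^ 2 * τ ^ 3)
          = c1 h F / Vol h * (s * τ) + c' * (s * τ) ^ 2 + K * (s * τ) ^ 3 := by ring
      rw [e4, e5]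
      linarith [hb1.2]
    exact le_of_mul_le_mul_left h6 hs0
  -- the limit
  have hlim : Tendsto (fun s : ℝ => τ * (c1 h F / Vol h) + c' * s * τ ^ 2 + K * s ^ 2 * τ ^ 3)
      (𝓝[>] 0) (𝓝 (τ * (c1 h F / Vol h))) := by
    have : Continuous (fun s : ℝ => τ * (c1 h F / Vol h) + c' * s * τ ^ 2 + K * s ^ 2 * τ ^ 3) := by
      fun_prop
    have h2 := this.tendsto 0
    simp only [mul_zero, zero_mul, add_zero, ne_eq, OfNat.ofNat_ne_zero, not_false_eq_true,
      zero_pow] at h2
    exact h2.mono_left nhdsWithin_le_nhds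
  have hev : ∀ᶠ s in 𝓝[>] (0 : ℝ), X ≤ τ * (c1 h F / Vol h) + c' * s * τ ^ 2 + K * s ^ 2 * τ ^ 3 := by
    have h3 : Ioo (0 : ℝ) (min 1 (ρ / τ)) ∈ 𝓝[>] (0 : ℝ) :=
      Ioo_mem_nhdsGT (lt_min one_pos (by positivity))
    filter_upwards [h3] with s hs3
    refine hs s hs3.1 (hs3.2.trans_le (min_le_left _ _)) ?_
    have h4 : s ≤ ρ / τ := hs3.2.le.trans (min_le_right _ _)
    rwa [le_div_iff₀ h0] at h4
  have h9 := ge_of_tendsto hlim hev
  rw [hX] at h9
  linarith

/-! ### Limits of volumes -/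

omit [DecidableEq ι] [Nonempty ι] in
/-- Convergence of volumes under relatively uniform convergence. -/
theorem tendsto_Vol_of_rel {P : (ι → ℝ) → ℝ} (hP : IsCompact (wulff P))
    {f : ℕ → (ι → ℝ) → ℝ} {ε : ℕ → ℝ} (hε : Tendsto ε atTop (𝓝 0)) (h0 : ∀ m, 0 ≤ ε m)
    (hle : ∀ m x, |f m x - P x| ≤ ε m * P x) :
    Tendsto (fun m => Vol (f m)) atTop (𝓝 (Vol P)) := by
  set n := Fintype.card ι with hn
  have hev : ∀ᶠ m in atTop, ε m < 1 := hε.eventually (gt_mem_nhds one_pos)
  have hbd : ∀ᶠ m in atTop, |Vol (f m) - Vol P| ≤ 2 ^ n * ε m * Vol P := by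
    filter_upwards [hev] with m hm
    have hlo : ∀ x, (1 - ε m) * P x ≤ f m x := fun x => by
      have := (abs_le.1 (hle m x)).1
      linarith
    have hhi : ∀ x, f m x ≤ (1 + ε m) * P x := fun x => by
      have := (abs_le.1 (hle m x)).2
      linarith
    have hfin : volume (wulff (f m)) ≠ ∞ := by
      have h1 : wulff (f m) ⊆ wulff fun x => (1 + ε m) * P x := wulff_mono hhi
      rw [wulff_const_mul (by linarith [h0 m])] at h1
      refine ne_top_of_le_ne_top ?_ (measure_mono h1)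
      rw [Measure.addHaar_smul]
      exact ENNReal.mul_ne_top ENNReal.ofReal_ne_top hP.measure_lt_top.ne
    exact Vol_sandwich (h0 m) hm hlo hhi hfin hP.measure_lt_top.ne
  have hlim : Tendsto (fun m => (2 : ℝ) ^ n * ε m * Vol P) atTop (𝓝 0) := by
    have := (hε.const_mul ((2 : ℝ) ^ n)).mul_const (Vol P)
    simpa using this
  have h1 : Tendsto (fun m => |Vol (f m) - Vol P|) atTop (𝓝 0) :=
    squeeze_zero' (Eventually.of_forall fun _ => abs_nonneg _) hbd hlim
  rw [tendsto_iff_norm_sub_tendsto_zero]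
  simpa [Real.norm_eq_abs] using h1

/-! ### Minkowski sums -/

omit [DecidableEq ι] [Nonempty ι] in
lemma IsSupportFn.exists_attain {S : Set (ι → ℝ)} (hg : IsSupportFn S g) (hS : IsCompact S)
    (u : ι → ℝ) : ∃ x ∈ S, x ⬝ᵥ u = g u := by
  have hc : Continuous fun x : ι → ℝ => x ⬝ᵥ u := by
    unfold dotProduct
    fun_prop
  have h1 : IsCompact ((fun x => x ⬝ᵥ u) '' S) := hS.image hc
  have h2 := (hg u).mem_of_isClosed (hg.nonempty.image _) h1.isClosed
  obtain ⟨x, hx, e⟩ := h2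
  exact ⟨x, hx, e⟩

omit [DecidableEq ι] [Nonempty ι] in
/-- The support function of a Minkowski sum. -/
lemma isSupportFn_add {K M : Set (ι → ℝ)} (hK : IsCompact K) (hM : IsCompact M)
    (hh : IsSupportFn K h) (hg : IsSupportFn M g) {τ : ℝ} (hτ : 0 ≤ τ) :
    IsSupportFn (K + τ • M) (lin h g τ) := by
  intro u
  constructor
  · rintro _ ⟨z, hz, rfl⟩
    obtain ⟨x, hx, w, hw, rfl⟩ := Set.mem_add.1 hz
    obtain ⟨y, hy, rfl⟩ := Set.mem_smul_set.1 hw
    have h1 := (hh u).1 ⟨x, hx, rfl⟩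
    have h2 := (hg u).1 ⟨y, hy, rfl⟩
    simp only [add_dotProduct, smul_dotProduct, smul_eq_mul, lin] at *
    have := mul_le_mul_of_nonneg_left h2 hτ
    linarith
  · intro b hb
    obtain ⟨x, hx, e1⟩ := hh.exists_attain hK u
    obtain ⟨y, hy, e2⟩ := hg.exists_attain hM u
    have h3 := hb ⟨x + τ • y, Set.add_mem_add hx (Set.smul_mem_smul_set hy), rfl⟩
    simp only [add_dotProduct, smul_dotProduct, smul_eq_mul, e1, e2] at h3
    exact h3

/-- The volume of a Minkowski sum. -/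
lemma volume_add_eq {K M : Set (ι → ℝ)} (hK : IsCompact K) (hM : IsCompact M) (hKv : Convex ℝ K)
    (hMv : Convex ℝ M) (hh : IsSupportFn K h) (hg : IsSupportFn M g) {τ : ℝ} (hτ : 0 ≤ τ) :
    (volume (K + τ • M)).toReal = Vol (lin h g τ) := by
  have h1 := isSupportFn_add hK hM hh hg hτ
  have h2 : IsCompact (K + τ • M) := hK.add (hM.smul τ)
  rw [Vol, wulff_eq_of_isSupportFn h2.isClosed (hKv.add (hMv.smul τ)) h1]

end Vale.Agent.Lib.P227L
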