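import Mathlib
import Vale.Agent.Lib.P227L.Ray

/-!
# Passage to the limit: limits of polynomials and closeness of perturbations
-/

open MeasureTheory Set Filter Topology
open scoped ENNReal Matrix Pointwise

namespace Vale.Agent.Lib.P227L

variable {ι : Type} [Fintype ι] [DecidableEq ι] {h G F P Q' : (ι → ℝ) → ℝ}

omit [DecidableEq ι] in
lemma isC2Plus_lin_nonneg {H A : (ι → ℝ) → ℝ} (hH : IsC2Plus H) (hA : IsC2Plus A) {τ : ℝ}
    (hτ : 0 ≤ τ) : IsC2Plus (lin H A τ) := by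
  have h1 := hH.toIsHom2
  have h2 := hA.toIsHom2
  refine { toIsHom2 := h1.add (h2.const_mul τ), pos := ?_, hess := ?_ }
  · intro ξ hξ
    have a1 := hH.pos ξ hξ
    have a2 := hA.pos ξ hξ
    simp only [lin]
    positivity
  · intro ξ hξ w hw
    have a1 := hH.hess ξ hξ w hw
    have a2 := hA.hess ξ hξ w hw
    have e : lin H A τ = fun x => H x + τ * A x := rfl
    rw [e, h1.D2_add (h2.const_mul τ) hξ, h2.D2_const_mul τ hξ]
    positivity

omit [DecidableEq ι] in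
lemma isC2Plus_add {A B : (ι → ℝ) → ℝ} (hA : IsC2Plus A) (hB : IsC2Plus B) :
    IsC2Plus fun x => A x + B x := by
  have := isC2Plus_lin_nonneg hA hB (τ := 1) zero_le_one
  have e : lin A B 1 = fun x => A x + B x := by
    funext x
    simp [lin]
  rwa [e] at this

variable [Nonempty ι]

/-- The limit of the volume polynomials along a ray. -/
theorem ray_limit {H A : ℕ → (ι → ℝ) → ℝ} {ε : ℝ → ℕ → ℝ}
    (hH : ∀ m, IsC2Plus (H m)) (hA : ∀ m, IsC2Plus (A m))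
    (hcomp : ∀ τ : ℝ, 0 ≤ τ → IsCompact (wulff (lin h G τ)))
    (hε : ∀ τ : ℝ, 0 ≤ τ → Tendsto (ε τ) atTop (𝓝 0))
    (hε0 : ∀ τ : ℝ, 0 ≤ τ → ∀ m, 0 ≤ ε τ m)
    (hclose : ∀ τ : ℝ, 0 ≤ τ → ∀ m x,
      |lin (H m) (A m) τ x - lin h G τ x| ≤ ε τ m * lin h G τ x) :
    ∃ Q : Polynomial ℝ, Q.natDegree ≤ Fintype.card ι ∧
      (∀ τ : ℝ, 0 ≤ τ → Vol (lin h G τ) = Q.eval τ) ∧
      Tendsto (fun m => Vol (H m)) atTop (𝓝 (Q.coeff 0)) ∧
      Tendsto (fun m => c1 (H m) (A m)) atTop (𝓝 (Q.coeff 1)) ∧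
      Tendsto (fun m => c2 (H m) (A m)) atTop (𝓝 (Q.coeff 2)) := by
  have hq := fun m => vol_lin_poly (hH m) (hA m).toIsHom2
    (fun τ hτ => isC2Plus_lin_nonneg (hH m) (hA m) hτ)
  choose q hdeg hval using hq
  have hcoef := fun m => coeffs_of_poly (hH m) (hA m).toIsHom2 (hval m)
  have hVol : ∀ τ : ℝ, 0 ≤ τ →
      Tendsto (fun m => Vol (lin (H m) (A m) τ)) atTop (𝓝 (Vol (lin h G τ))) := fun τ hτ =>
    tendsto_Vol_of_rel (hcomp τ hτ) (hε τ hτ) (hε0 τ hτ) (hclose τ hτ)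
  have hval' : ∀ τ : ℝ, 0 ≤ τ → ∀ m, Vol (lin (H m) (A m) τ) = (q m).eval τ := fun τ hτ m =>
    hval m τ (isC2Plus_lin_nonneg (hH m) (hA m) hτ)
  obtain ⟨Q, hQd, hQc, hQe⟩ := poly_limit q hdeg (fun τ => Vol (lin h G τ)) (fun k _ => by
    have := hVol (k : ℝ) (by positivity)
    simp only [hval' (k : ℝ) (by positivity)] at this
    exact this)
  refine ⟨Q, hQd, fun τ hτ => ?_, ?_, ?_, ?_⟩
  · have := hVol τ hτ
    simp only [hval' τ hτ] at this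
    exact tendsto_nhds_unique this (hQe τ)
  · simp only [fun m => (hcoef m).1]
    exact hQc 0
  · simp only [fun m => (hcoef m).2.1]
    exact hQc 1
  · simp only [fun m => (hcoef m).2.2]
    exact hQc 2

omit [Fintype ι] [DecidableEq ι] [Nonempty ι] in
/-- Closeness of the quotients. -/
lemma sq_close {h' H G' G₀ ρ C : ℝ} (hh : 0 < h') (hρ0 : 0 ≤ ρ) (hρ : ρ ≤ 1 / 2)
    (h1 : |H - h'| ≤ ρ * h') (h2 : |G' - G₀| ≤ ρ * h') (h3 : |G₀| ≤ C * h') :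
    |G' * G' / H - G₀ ^ 2 / h'| ≤ 2 * ρ * (2 * C + ρ + C ^ 2) * h' := by
  set w := (H - h') / h' with hw
  set v := (G' - G₀) / h' with hv
  set u := G₀ / h' with hu
  have eH : H = h' * (1 + w) := by
    rw [hw]
    field_simp
    ring
  have eG' : G' = h' * (u + v) := by
    rw [hu, hv]
    field_simp
    ring
  have eG : G₀ = h' * u := by
    rw [hu]
    field_simp
  have hw1 : |w| ≤ ρ := by
    rw [hw, abs_div, abs_of_pos hh, div_le_iff₀ hh]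
    exact h1
  have hv1 : |v| ≤ ρ := by
    rw [hv, abs_div, abs_of_pos hh, div_le_iff₀ hh]
    exact h2
  have hu1 : |u| ≤ C := by
    rw [hu, abs_div, abs_of_pos hh, div_le_iff₀ hh]
    exact h3
  have hC0 : 0 ≤ C := (abs_nonneg u).trans hu1
  have hw2 := abs_le.1 hw1
  have h1w : 1 / 2 ≤ 1 + w := by linarith
  have h1w' : 0 < 1 + w := by linarith
  have e : G' * G' / H - G₀ ^ 2 / h' = h' * ((2 * (u * v) + v ^ 2 - u ^ 2 * w) / (1 + w)) := by
    rw [eH, eG', eG]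
    field_simp
    ring
  rw [e, abs_mul, abs_of_pos hh, abs_div, abs_of_pos h1w']
  have n1 : |2 * (u * v) + v ^ 2 - u ^ 2 * w| ≤ ρ * (2 * C + ρ + C ^ 2) := by
    have a1 : |2 * (u * v)| ≤ 2 * (C * ρ) := by
      rw [abs_mul, abs_mul, abs_of_pos (by norm_num : (0 : ℝ) < 2)]
      have := mul_le_mul hu1 hv1 (abs_nonneg _) hC0
      linarith
    have a2 : |v ^ 2| ≤ ρ * ρ := by
      rw [abs_pow, pow_two]
      exact mul_le_mul hv1 hv1 (abs_nonneg _) hρ0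
    have a3 : |u ^ 2 * w| ≤ C ^ 2 * ρ := by
      rw [abs_mul, abs_pow]
      exact mul_le_mul (pow_le_pow_left₀ (abs_nonneg _) hu1 2) hw1 (abs_nonneg _) (by positivity)
    calc |2 * (u * v) + v ^ 2 - u ^ 2 * w| ≤ |2 * (u * v) + v ^ 2| + |u ^ 2 * w| := abs_sub _ _
      _ ≤ |2 * (u * v)| + |v ^ 2| + |u ^ 2 * w| := by
          gcongr
          exact abs_add_le _ _
      _ ≤ 2 * (C * ρ) + ρ * ρ + C ^ 2 * ρ := by linarith
      _ = _ := by ring
  have n2 : |2 * (u * v) + v ^ 2 - u ^ 2 * w| / (1 + w) ≤ 2 * ρ * (2 * C + ρ + C ^ 2) := by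
    rw [div_le_iff₀ h1w']
    have n3 : 0 ≤ ρ * (2 * C + ρ + C ^ 2) := by positivity
    nlinarith
  calc h' * (|2 * (u * v) + v ^ 2 - u ^ 2 * w| / (1 + w)) ≤ h' * (2 * ρ * (2 * C + ρ + C ^ 2)) :=
        mul_le_mul_of_nonneg_left n2 hh.le
    _ = _ := by ring

/-- The mixed relations for a difference. -/
lemma c_sub (hh : IsC2Plus h) {G₁ G₂ : (ι → ℝ) → ℝ} (h1 : IsHom2 G₁) (h2 : IsHom2 G₂) :
    c1 h (fun x => G₁ x - G₂ x) = c1 h G₁ - c1 h G₂ ∧
      c2 h (fun x => G₁ x - G₂ x) = 2 * c2 h G₁ + 2 * c2 h G₂ - c2 h (fun x => G₁ x + G₂ x) := by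
  obtain ⟨E, hp⟩ := exists_pairData hh h1 h2
  have s := hp.t2.curve 1 0 (-1) 0
  have e1 : (fun τ : ℝ => Vol (comb h G₁ G₂ (1 * τ + 0 * τ ^ 2) (-1 * τ + 0 * τ ^ 2)))
      = fun τ => Vol (lin h (fun x => G₁ x - G₂ x) τ) := by
    funext τ
    congr 1
    funext x
    simp only [comb, lin]
    ring
  rw [e1] at s
  obtain ⟨_, a2, a3⟩ := s.unique (T1_lin hh (h1.sub h2))
  have a4 := hp.add2
  constructor
  · rw [← a2]
    ring
  · rw [← a3, a4]
    ring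

end Vale.Agent.Lib.P227L
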