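import Mathlib
import Vale.Agent.Lib.P227L.Nonsmooth1

/-!
# Passage to the limit: the second variation inequality at all bodies invariant under coordinate
reflections
-/

open MeasureTheory Set Filter Topology
open scoped ENNReal Matrix Pointwise

namespace Vale.Agent.Lib.P227L

variable {ι : Type} [Fintype ι] [DecidableEq ι]

/-- The approximation data. -/
structure AD (h g₁ g₂ : (ι → ℝ) → ℝ) (c R : ℝ) (η : ℕ → ℝ) (H A B : ℕ → (ι → ℝ) → ℝ) : Prop where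
  hH : ∀ m, IsC2Plus (H m)
  hi : ∀ m i ξ, H m (refl i ξ) = H m ξ
  hA : ∀ m, IsC2Plus (A m)
  hB : ∀ m, IsC2Plus (B m)
  cH : ∀ m ξ, |H m ξ - h ξ| ≤ η m * en ξ
  cA : ∀ m ξ, |A m ξ - g₁ ξ| ≤ η m * en ξ
  cB : ∀ m ξ, |B m ξ - g₂ ξ| ≤ η m * en ξ
  c0 : 0 < c
  R0 : 0 ≤ R
  low : ∀ ξ, c * en ξ ≤ h ξ
  η0 : ∀ m, 0 < η m
  ηs : ∀ m, η m ≤ c / 4
  ηl : Tendsto η atTop (𝓝 0)
  nn1 : ∀ ξ, 0 ≤ g₁ ξ
  nn2 : ∀ ξ, 0 ≤ g₂ ξ
  up1 : ∀ ξ, g₁ ξ ≤ R * en ξ
  up2 : ∀ ξ, g₂ ξ ≤ R * en ξ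
  uph : ∀ ξ, h ξ ≤ R * en ξ
  Vpos : 0 < Vol h

variable {h g₁ g₂ : (ι → ℝ) → ℝ} {c R : ℝ} {η : ℕ → ℝ} {H A B : ℕ → (ι → ℝ) → ℝ}

/-- The quotient of the limit objects. -/
noncomputable def Fl (h g₁ g₂ : (ι → ℝ) → ℝ) : (ι → ℝ) → ℝ := fun x => (g₁ x - g₂ x) ^ 2 / h x

namespace AD

lemma en_le (ad : AD h g₁ g₂ c R η H A B) (ξ : ι → ℝ) : en ξ ≤ h ξ / c := by
  rw [le_div_iff₀ ad.c0, mul_comm]
  exact ad.low ξ

lemma h_nonneg (ad : AD h g₁ g₂ c R η H A B) (ξ : ι → ℝ) : 0 ≤ h ξ :=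
  le_trans (mul_nonneg ad.c0.le (en_nonneg ξ)) (ad.low ξ)

/-- Closeness of perturbations. -/
lemma close (ad : AD h g₁ g₂ c R η H A B) {G : (ι → ℝ) → ℝ} {A' : ℕ → (ι → ℝ) → ℝ} {κ : ℝ}
    (hκ : 0 ≤ κ) (hG : ∀ ξ, 0 ≤ G ξ) (hA' : ∀ m ξ, |A' m ξ - G ξ| ≤ κ * (η m * en ξ)) {τ : ℝ}
    (hτ : 0 ≤ τ) (m : ℕ) (x : ι → ℝ) :
    |lin (H m) (A' m) τ x - lin h G τ x| ≤ ((1 + τ * κ) * (η m / c)) * lin h G τ x := by
  have hη := ad.η0 m
  have hc := ad.c0
  have e : lin (H m) (A' m) τ x - lin h G τ x = (H m x - h x) + τ * (A' m x - G x) := by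
    simp only [lin]
    ring
  have he := ad.en_le x
  have hen := en_nonneg x
  have h1 : |H m x - h x| ≤ η m * en x := ad.cH m x
  have h2 : |τ * (A' m x - G x)| ≤ τ * (κ * (η m * en x)) := by
    rw [abs_mul, abs_of_nonneg hτ]
    exact mul_le_mul_of_nonneg_left (hA' m x) hτ
  have h3 : η m * en x ≤ η m * (h x / c) := mul_le_mul_of_nonneg_left he hη.le
  have h4 : 0 ≤ (1 + τ * κ) * (η m / c) := by positivity
  have h5 : h x ≤ lin h G τ x := by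
    simp only [lin]
    have := mul_nonneg hτ (hG x)
    linarith
  rw [e]
  calc |H m x - h x + τ * (A' m x - G x)| ≤ |H m x - h x| + |τ * (A' m x - G x)| := abs_add_le _ _
    _ ≤ η m * en x + τ * (κ * (η m * en x)) := add_le_add h1 h2
    _ = (1 + τ * κ) * (η m * en x) := by ring
    _ ≤ (1 + τ * κ) * (η m * (h x / c)) := mul_le_mul_of_nonneg_left h3 (by positivity)
    _ = (1 + τ * κ) * (η m / c) * h x := by ring
    _ ≤ _ := mul_le_mul_of_nonneg_left h5 h4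

lemma compact_lin (ad : AD h g₁ g₂ c R η H A B) {G : (ι → ℝ) → ℝ} {R' : ℝ} (hR' : 0 ≤ R')
    (hG : ∀ ξ, G ξ ≤ R' * en ξ) {τ : ℝ} (hτ : 0 ≤ τ) : IsCompact (wulff (lin h G τ)) := by
  refine isCompact_wulff_of_le (C := R + τ * R') (add_nonneg ad.R0 (by positivity)) fun u => ?_
  simp only [lin]
  have h1 := ad.uph u
  have h2 := mul_le_mul_of_nonneg_left (hG u) hτ
  have e : (R + τ * R') * Real.sqrt (u ⬝ᵥ u) = R * en u + τ * (R' * en u) := by
    simp only [en]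
    ring
  rw [e]
  linarith

/-- The ray limit for one comparison function. -/
lemma tendsto_eps (ad : AD h g₁ g₂ c R η H A B) {κ : ℝ} {τ : ℝ} :
    Tendsto (fun m => (1 + τ * κ) * (η m / c)) atTop (𝓝 0) := by
  have := (ad.ηl.div_const c).const_mul (1 + τ * κ)
  simpa using this

variable [Nonempty ι]

/-- The limit of the coefficients for a single comparison function. -/
lemma ray (ad : AD h g₁ g₂ c R η H A B) {G : (ι → ℝ) → ℝ} {A' : ℕ → (ι → ℝ) → ℝ} {κ R' : ℝ}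
    (hκ : 0 ≤ κ) (hR' : 0 ≤ R') (hGu : ∀ ξ, G ξ ≤ R' * en ξ) (hG : ∀ ξ, 0 ≤ G ξ)
    (hA2 : ∀ m, IsC2Plus (A' m)) (hA' : ∀ m ξ, |A' m ξ - G ξ| ≤ κ * (η m * en ξ)) :
    ∃ Q : Polynomial ℝ, Q.natDegree ≤ Fintype.card ι ∧
      (∀ τ : ℝ, 0 ≤ τ → Vol (lin h G τ) = Q.eval τ) ∧
      Tendsto (fun m => Vol (H m)) atTop (𝓝 (Q.coeff 0)) ∧
      Tendsto (fun m => c1 (H m) (A' m)) atTop (𝓝 (Q.coeff 1)) ∧
      Tendsto (fun m => c2 (H m) (A' m)) atTop (𝓝 (Q.coeff 2)) :=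
  ray_limit (ε := fun τ m => (1 + τ * κ) * (η m / c)) ad.hH hA2
    (fun _ hτ => ad.compact_lin hR' hGu hτ) (fun _ _ => ad.tendsto_eps)
    (fun τ hτ m => by
      have := ad.η0 m
      have := ad.c0
      positivity)
    (fun _ hτ m x => ad.close hκ hG hA' hτ m x)

omit [Nonempty ι] in
lemma zero_facts (ad : AD h g₁ g₂ c R η H A B) :
    h 0 = 0 ∧ g₁ 0 = 0 ∧ g₂ 0 = 0 := by
  have e : en (0 : ι → ℝ) = 0 := by simp [en]
  have h1 := ad.uph 0
  have h2 := ad.up1 0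
  have h3 := ad.up2 0
  rw [e, mul_zero] at h1 h2 h3
  exact ⟨le_antisymm h1 (ad.h_nonneg 0), le_antisymm h2 (ad.nn1 0), le_antisymm h3 (ad.nn2 0)⟩

omit [Nonempty ι] in
lemma abs_sub_le_en (ad : AD h g₁ g₂ c R η H A B) (x : ι → ℝ) : |g₁ x - g₂ x| ≤ R * en x := by
  have h1 := ad.nn1 x
  have h2 := ad.nn2 x
  have h3 := ad.up1 x
  have h4 := ad.up2 x
  rw [abs_le]
  constructor <;> linarith

omit [Nonempty ι] in
/-- The perturbation by the quotient. -/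
lemma closeF (ad : AD h g₁ g₂ c R η H A B) {τ : ℝ} (hτ : 0 ≤ τ) (m : ℕ) (x : ι → ℝ) :
    |lin (H m) (sq (H m) fun x => A m x - B m x) τ x - lin h (Fl h g₁ g₂) τ x|
      ≤ ((2 * η m / c) * (1 + 2 * τ * (2 * (R / c) + 1 + (R / c) ^ 2))) * lin h (Fl h g₁ g₂) τ x := by
  have hc := ad.c0
  have hη := ad.η0 m
  have hR := ad.R0
  have hηs := ad.ηs m
  have hF0 : ∀ y, 0 ≤ Fl h g₁ g₂ y := fun y => div_nonneg (by positivity) (ad.h_nonneg y)
  by_cases hx : x = 0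
  · subst hx
    obtain ⟨z1, z2, z3⟩ := ad.zero_facts
    have z4 := (ad.hH m).toIsHom2.zero
    have z5 := (ad.hA m).toIsHom2.zero
    have z6 := (ad.hB m).toIsHom2.zero
    simp [lin, sq, Fl, z1, z2, z3, z4, z5, z6]
  have hen := en_pos hx
  have hhx : 0 < h x := lt_of_lt_of_le (by positivity) (ad.low x)
  have he := ad.en_le x
  set ρ := 2 * η m / c with hρ
  have hρ0 : 0 ≤ ρ := by positivity
  have hρ1 : ρ ≤ 1 / 2 := by
    rw [hρ, div_le_iff₀ hc]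
    linarith
  have hρ2 : η m * en x ≤ ρ * h x / 2 := by
    have : η m * en x ≤ η m * (h x / c) := mul_le_mul_of_nonneg_left he hη.le
    have e : η m * (h x / c) = ρ * h x / 2 := by
      rw [hρ]
      field_simp
    linarith
  have h1 : |H m x - h x| ≤ ρ * h x := by
    have := ad.cH m x
    have : 0 ≤ ρ * h x := by positivity
    linarith
  have h2 : |(A m x - B m x) - (g₁ x - g₂ x)| ≤ ρ * h x := by
    have a1 := ad.cA m x
    have a2 := ad.cB m x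
    have e : (A m x - B m x) - (g₁ x - g₂ x) = (A m x - g₁ x) - (B m x - g₂ x) := by ring
    rw [e]
    refine (abs_sub _ _).trans ?_
    linarith
  have h3 : |g₁ x - g₂ x| ≤ (R / c) * h x := by
    refine (ad.abs_sub_le_en x).trans ?_
    calc R * en x ≤ R * (h x / c) := mul_le_mul_of_nonneg_left he hR
      _ = _ := by ring
  have h4 := sq_close hhx hρ0 hρ1 h1 h2 h3
  set C := R / c with hC
  have hC0 : 0 ≤ C := by positivity
  have h5 : |sq (H m) (fun x => A m x - B m x) x - Fl h g₁ g₂ x|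
      ≤ 2 * ρ * (2 * C + 1 + C ^ 2) * h x := by
    refine h4.trans ?_
    apply mul_le_mul_of_nonneg_right _ hhx.le
    apply mul_le_mul_of_nonneg_left _ (by positivity)
    linarith
  have e : lin (H m) (sq (H m) fun x => A m x - B m x) τ x - lin h (Fl h g₁ g₂) τ x
      = (H m x - h x) + τ * (sq (H m) (fun x => A m x - B m x) x - Fl h g₁ g₂ x) := by
    simp only [lin]
    ring
  rw [e]
  have h6 : h x ≤ lin h (Fl h g₁ g₂) τ x := by
    simp only [lin]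
    have := mul_nonneg hτ (hF0 x)
    linarith
  have h7 : |τ * (sq (H m) (fun x => A m x - B m x) x - Fl h g₁ g₂ x)|
      ≤ τ * (2 * ρ * (2 * C + 1 + C ^ 2) * h x) := by
    rw [abs_mul, abs_of_nonneg hτ]
    exact mul_le_mul_of_nonneg_left h5 hτ
  calc _ ≤ |H m x - h x| + |τ * (sq (H m) (fun x => A m x - B m x) x - Fl h g₁ g₂ x)| :=
        abs_add_le _ _
    _ ≤ ρ * h x + τ * (2 * ρ * (2 * C + 1 + C ^ 2) * h x) := add_le_add h1 h7
    _ = (ρ * (1 + 2 * τ * (2 * C + 1 + C ^ 2))) * h x := by ring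
    _ ≤ _ := mul_le_mul_of_nonneg_left h6 (by positivity)

omit [Nonempty ι] in
lemma compactF (ad : AD h g₁ g₂ c R η H A B) {τ : ℝ} (hτ : 0 ≤ τ) :
    IsCompact (wulff (lin h (Fl h g₁ g₂) τ)) := by
  have hc := ad.c0
  have hR := ad.R0
  refine ad.compact_lin (R' := (R / c) * R) (by positivity) (fun ξ => ?_) hτ
  by_cases hξ : ξ = 0
  · subst hξ
    obtain ⟨z1, z2, z3⟩ := ad.zero_facts
    simp [Fl, z1, z2, z3, en]
  have hen := en_pos hξ
  have hhx : 0 < h ξ := lt_of_lt_of_le (by positivity) (ad.low ξ)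
  have h1 := ad.abs_sub_le_en ξ
  simp only [Fl]
  rw [div_le_iff₀ hhx, ← sq_abs]
  have h2 := ad.low ξ
  have h3 : |g₁ ξ - g₂ ξ| ^ 2 ≤ (R * en ξ) ^ 2 := pow_le_pow_left₀ (abs_nonneg _) h1 2
  have h4 : (R * en ξ) ^ 2 ≤ R / c * R * en ξ * h ξ := by
    have h5 : c * en ξ ≤ h ξ := h2
    have e : R / c * R * en ξ * h ξ = (R * R * en ξ / c) * h ξ := by ring
    have e2 : (R * en ξ) ^ 2 = (R * R * en ξ / c) * (c * en ξ) := by
      field_simp
    rw [e, e2]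
    exact mul_le_mul_of_nonneg_left h5 (by positivity)
  linarith

/-- The inequality for the smooth approximants. -/
lemma step (ad : AD h g₁ g₂ c R η H A B) (m : ℕ) {τ : ℝ} (hτ : 0 ≤ τ) :
    Real.log (Vol (lin (H m) (sq (H m) fun x => A m x - B m x) τ)) ≤ Real.log (Vol (H m))
      + τ * (((c1 (H m) (A m) - c1 (H m) (B m)) ^ 2 / Vol (H m)
        - 2 * (2 * c2 (H m) (A m) + 2 * c2 (H m) (B m) - c2 (H m) fun x => A m x + B m x))
          / Vol (H m)) := by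
  have hh := ad.hH m
  have hA2 := (ad.hA m).toIsHom2
  have hB2 := (ad.hB m).toIsHom2
  have hG := hA2.sub hB2
  have hF0 : ∀ x, 0 ≤ sq (H m) (fun x => A m x - B m x) x := fun x =>
    div_nonneg (mul_self_nonneg _) (hh.nonneg x)
  obtain ⟨-, h1⟩ := log_Vol_tangent hh (isHom2_sq hh hG) hF0 hτ
  have hV := hh.Vol_pos
  have h2 := Th_nonpos hh (ad.hi m) hG
  obtain ⟨e1, e2⟩ := c_sub hh hA2 hB2
  rw [Th, e1, e2] at h2
  refine h1.trans ?_
  apply add_le_add_right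
  apply mul_le_mul_of_nonneg_left _ hτ
  rw [div_le_div_iff_of_pos_right hV, le_sub_iff_add_le, le_div_iff₀ hV]
  linarith

/-- The limit inequality. -/
theorem main (ad : AD h g₁ g₂ c R η H A B) :
    ∃ Q₁ Q₂ Q₃ : Polynomial ℝ, Q₁.natDegree ≤ Fintype.card ι ∧ Q₂.natDegree ≤ Fintype.card ι ∧
      Q₃.natDegree ≤ Fintype.card ι ∧
      (∀ τ : ℝ, 0 ≤ τ → Vol (lin h g₁ τ) = Q₁.eval τ) ∧
      (∀ τ : ℝ, 0 ≤ τ → Vol (lin h g₂ τ) = Q₂.eval τ) ∧
      (∀ τ : ℝ, 0 ≤ τ → Vol (lin h (fun x => g₁ x + g₂ x) τ) = Q₃.eval τ) ∧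
      ∀ τ : ℝ, 0 ≤ τ → Real.log (Vol (lin h (Fl h g₁ g₂) τ)) ≤ Real.log (Vol h)
        + τ * (((Q₁.coeff 1 - Q₂.coeff 1) ^ 2 / Vol h
          - 2 * (2 * Q₁.coeff 2 + 2 * Q₂.coeff 2 - Q₃.coeff 2)) / Vol h) := by
  have hR := ad.R0
  obtain ⟨Q₁, d1, v1, l10, l11, l12⟩ := ad.ray (G := g₁) (A' := A) (κ := 1) (R' := R) zero_le_one hR
    ad.up1 ad.nn1 ad.hA (fun m ξ => by simpa using ad.cA m ξ)
  obtain ⟨Q₂, d2, v2, -, l21, l22⟩ := ad.ray (G := g₂) (A' := B) (κ := 1) (R' := R) zero_le_one hR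
    ad.up2 ad.nn2 ad.hB (fun m ξ => by simpa using ad.cB m ξ)
  obtain ⟨Q₃, d3, v3, -, -, l32⟩ := ad.ray (G := fun x => g₁ x + g₂ x)
    (A' := fun m x => A m x + B m x) (κ := 2) (R' := R + R) zero_le_two (by positivity)
    (fun ξ => by
      have a1 := ad.up1 ξ
      have a2 := ad.up2 ξ
      show g₁ ξ + g₂ ξ ≤ (R + R) * en ξ
      linarith)
    (fun ξ => add_nonneg (ad.nn1 ξ) (ad.nn2 ξ)) (fun m => isC2Plus_add (ad.hA m) (ad.hB m))
    (fun m ξ => by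
      have a1 := ad.cA m ξ
      have a2 := ad.cB m ξ
      have e : A m ξ + B m ξ - (g₁ ξ + g₂ ξ) = (A m ξ - g₁ ξ) + (B m ξ - g₂ ξ) := by ring
      rw [e]
      refine (abs_add_le _ _).trans ?_
      linarith)
  refine ⟨Q₁, Q₂, Q₃, d1, d2, d3, v1, v2, v3, fun τ hτ => ?_⟩
  have hV0 : Q₁.coeff 0 = Vol h := by
    rw [Polynomial.coeff_zero_eq_eval_zero, ← v1 0 le_rfl]
    congr 1
    funext x
    simp [lin]
  rw [hV0] at l10
  have hVp := ad.Vpos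
  have hc := ad.c0
  -- the volume of the perturbation converges
  have hlim := tendsto_Vol_of_rel (ad.compactF hτ)
    (ε := fun m => (2 * η m / c) * (1 + 2 * τ * (2 * (R / c) + 1 + (R / c) ^ 2)))
    (by
      have := ((ad.ηl.const_mul 2).div_const c).mul_const
        (1 + 2 * τ * (2 * (R / c) + 1 + (R / c) ^ 2))
      simpa using this)
    (fun m => by
      have := ad.η0 m
      positivity)
    (fun m x => ad.closeF hτ m x)
  have hF0 : ∀ y, 0 ≤ Fl h g₁ g₂ y := fun y => div_nonneg (by positivity) (ad.h_nonneg y)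
  have hVF : Vol h ≤ Vol (lin h (Fl h g₁ g₂) τ) := by
    apply Vol_mono _ (ad.compactF hτ).measure_lt_top.ne
    intro u
    simp only [lin]
    have := mul_nonneg hτ (hF0 u)
    linarith
  have hlog1 : Tendsto (fun m => Real.log (Vol (lin (H m) (sq (H m) fun x => A m x - B m x) τ)))
      atTop (𝓝 (Real.log (Vol (lin h (Fl h g₁ g₂) τ)))) :=
    (Real.continuousAt_log (by linarith)).tendsto.comp hlim
  have hlog2 : Tendsto (fun m => Real.log (Vol (H m))) atTop (𝓝 (Real.log (Vol h))) :=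
    (Real.continuousAt_log hVp.ne').tendsto.comp l10
  have hrhs : Tendsto (fun m => Real.log (Vol (H m))
      + τ * (((c1 (H m) (A m) - c1 (H m) (B m)) ^ 2 / Vol (H m)
        - 2 * (2 * c2 (H m) (A m) + 2 * c2 (H m) (B m) - c2 (H m) fun x => A m x + B m x))
          / Vol (H m))) atTop
      (𝓝 (Real.log (Vol h) + τ * (((Q₁.coeff 1 - Q₂.coeff 1) ^ 2 / Vol h
          - 2 * (2 * Q₁.coeff 2 + 2 * Q₂.coeff 2 - Q₃.coeff 2)) / Vol h))) := by
    refine hlog2.add (Tendsto.const_mul _ ?_)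
    refine Tendsto.div ?_ l10 hVp.ne'
    refine Tendsto.sub (Tendsto.div ((l11.sub l21).pow 2) l10 hVp.ne') (Tendsto.const_mul _ ?_)
    exact ((l12.const_mul 2).add (l22.const_mul 2)).sub l32
  exact le_of_tendsto_of_tendsto' hlog1 hrhs fun m => ad.step m hτ

end AD

end Vale.Agent.Lib.P227L
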