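import Mathlib
import Vale.Agent.Lib.P227L.Nonsmooth2

/-!
# The second variation inequality in geometric form
-/

open MeasureTheory Set Filter Topology
open scoped ENNReal Matrix Pointwise

namespace Vale.Agent.Lib.P227L

variable {ι : Type} [Fintype ι] [DecidableEq ι] {K M₁ M₂ : Set (ι → ℝ)} {h g₁ g₂ : (ι → ℝ) → ℝ}

lemma neg_mem_of_flip (hKu : ∀ i, ∀ x ∈ K, refl i x ∈ K) {x : ι → ℝ} (hx : x ∈ K) : -x ∈ K := by
  rw [← reflS_univ]
  exact mem_reflS hKu _ hx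

/-- A reflection-invariant convex set with interior contains a ball around the origin. -/
lemma exists_low (hKv : Convex ℝ K) (hKu : ∀ i, ∀ x ∈ K, refl i x ∈ K)
    (hKi : (interior K).Nonempty) (hh : IsSupportFn K h) :
    ∃ c : ℝ, 0 < c ∧ ∀ ξ, c * en ξ ≤ h ξ := by
  obtain ⟨x₀, hx₀⟩ := hKi
  obtain ⟨r, hr, hb⟩ := Metric.mem_nhds_iff.1 (mem_interior_iff_mem_nhds.1 hx₀)
  have hball : Metric.ball (0 : ι → ℝ) r ⊆ K := by
    intro y hy
    have hy' : ‖y‖ < r := mem_ball_zero_iff.1 hy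
    have h1 : x₀ + y ∈ K := hb (by
      rw [Metric.mem_ball, dist_eq_norm]
      simpa using hy')
    have h2 : -x₀ + y ∈ K := by
      have h3 : x₀ - y ∈ K := hb (by
        rw [Metric.mem_ball, dist_eq_norm]
        simpa using hy')
      have h4 := neg_mem_of_flip hKu h3
      have e : -x₀ + y = -(x₀ - y) := by abel
      rw [e]
      exact h4
    have h3 := hKv h1 h2 (a := 1 / 2) (b := 1 / 2) (by norm_num) (by norm_num) (by norm_num)
    have e : (1 / 2 : ℝ) • (x₀ + y) + (1 / 2 : ℝ) • (-x₀ + y) = y := by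
      ext a
      simp only [Pi.add_apply, Pi.smul_apply, Pi.neg_apply, smul_eq_mul]
      ring
    rwa [e] at h3
  refine ⟨r / 2, by positivity, fun ξ => ?_⟩
  by_cases hξ : ξ = 0
  · subst hξ
    have h0 : (0 : ι → ℝ) ∈ K := hball (Metric.mem_ball_self hr)
    have := (hh 0).1 ⟨0, h0, rfl⟩
    simp only [dotProduct_zero] at this
    simpa [en] using this
  have he := en_pos hξ
  set x : ι → ℝ := ((r / 2) / en ξ) • ξ with hx
  have hxK : x ∈ K := by
    apply hball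
    rw [mem_ball_zero_iff]
    have h1 : ‖x‖ ≤ r / 2 := by
      refine (pi_norm_le_iff_of_nonneg (by positivity)).2 fun a => ?_
      rw [hx, Pi.smul_apply, smul_eq_mul, Real.norm_eq_abs, abs_mul,
        abs_of_pos (by positivity : 0 < (r / 2) / en ξ)]
      have h2 := abs_apply_le_en ξ a
      calc (r / 2) / en ξ * |ξ a| ≤ (r / 2) / en ξ * en ξ :=
            mul_le_mul_of_nonneg_left h2 (by positivity)
        _ = r / 2 := by field_simp
    linarith
  have h1 := (hh ξ).1 ⟨x, hxK, rfl⟩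
  simp only [hx, smul_dotProduct, smul_eq_mul] at h1
  have e : ξ ⬝ᵥ ξ = en ξ ^ 2 := (en_sq ξ).symm
  rw [e] at h1
  have e2 : (r / 2) / en ξ * en ξ ^ 2 = r / 2 * en ξ := by
    field_simp
  rwa [e2] at h1

/-- The approximation data for a reflection-invariant body and two comparison bodies. -/
theorem exists_AD (hKc : IsCompact K) (hKv : Convex ℝ K) (hKu : ∀ i, ∀ x ∈ K, refl i x ∈ K)
    (hKi : (interior K).Nonempty) (hM₁c : IsCompact M₁) (hM₁s : ∀ x ∈ M₁, -x ∈ M₁)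
    (hM₂c : IsCompact M₂) (hM₂s : ∀ x ∈ M₂, -x ∈ M₂) (hh : IsSupportFn K h)
    (hg₁ : IsSupportFn M₁ g₁) (hg₂ : IsSupportFn M₂ g₂) :
    ∃ (c R : ℝ) (η : ℕ → ℝ) (H A B : ℕ → (ι → ℝ) → ℝ), AD h g₁ g₂ c R η H A B := by
  obtain ⟨c, hc, hlow⟩ := exists_low hKv hKu hKi hh
  obtain ⟨R₀, hR₀, hu₀⟩ := hh.exists_bound hKc
  obtain ⟨R₁, hR₁, hu₁⟩ := hg₁.exists_bound hM₁c
  obtain ⟨R₂, hR₂, hu₂⟩ := hg₂.exists_bound hM₂c
  set η : ℕ → ℝ := fun m => (c / 4) * (1 / ((m : ℝ) + 1)) with hη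
  have hη0 : ∀ m, 0 < η m := fun m => by
    simp only [hη]
    positivity
  have hηs : ∀ m, η m ≤ c / 4 := fun m => by
    simp only [hη]
    have h1 : 1 / ((m : ℝ) + 1) ≤ 1 := by
      rw [div_le_one (by positivity)]
      have : (0 : ℝ) ≤ m := by positivity
      linarith
    have h2 : 0 < c / 4 := by positivity
    nlinarith
  have hηl : Tendsto η atTop (𝓝 0) := by
    have := (tendsto_one_div_add_atTop_nhds_zero_nat (𝕜 := ℝ)).const_mul (c / 4)
    simpa [hη] using this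
  have hKs : ∀ x ∈ K, -x ∈ K := fun x hx => neg_mem_of_flip hKu hx
  choose H hH1 hH2 hH3 using fun m => exists_approx_flip hKc hKs hh hKu (hη0 m)
  choose A hA1 hA3 using fun m => exists_approx hM₁c hM₁s hg₁ (hη0 m)
  choose B hB1 hB3 using fun m => exists_approx hM₂c hM₂s hg₂ (hη0 m)
  have hW : wulff h = K := wulff_eq_of_isSupportFn hKc.isClosed hKv hh
  have hV : 0 < Vol h := by
    rw [Vol, hW]
    apply ENNReal.toReal_pos _ hKc.measure_lt_top.ne
    have h1 := isOpen_interior.measure_pos (volume : Measure (ι → ℝ)) hKi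
    exact (lt_of_lt_of_le h1 (measure_mono interior_subset)).ne'
  have hen : ∀ ξ : ι → ℝ, 0 ≤ en ξ := en_nonneg
  refine ⟨c, R₀ + R₁ + R₂, η, H, A, B, ?_⟩
  exact
    { hH := hH1, hi := hH2, hA := hA1, hB := hB1, cH := hH3, cA := hA3, cB := hB3, c0 := hc
      R0 := by positivity, low := hlow, η0 := hη0, ηs := hηs, ηl := hηl
      nn1 := hg₁.nonneg hM₁s, nn2 := hg₂.nonneg hM₂s
      up1 := fun ξ => by
        have := hu₁ ξ
        have := mul_nonneg hR₀ (hen ξ)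
        have := mul_nonneg hR₂ (hen ξ)
        nlinarith
      up2 := fun ξ => by
        have := hu₂ ξ
        have := mul_nonneg hR₀ (hen ξ)
        have := mul_nonneg hR₁ (hen ξ)
        nlinarith
      uph := fun ξ => by
        have := hu₀ ξ
        have := mul_nonneg hR₁ (hen ξ)
        have := mul_nonneg hR₂ (hen ξ)
        nlinarith
      Vpos := hV }

/-! ### The right derivative -/

/-- The logarithm of the volume of a ray of Wulff sets is concave and below a line, so the volume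
has a right derivative at zero. -/
theorem exists_right_deriv {h F : (ι → ℝ) → ℝ} (hV : 0 < Vol h)
    (hcomp : ∀ τ : ℝ, 0 ≤ τ → IsCompact (wulff (lin h F τ))) (hF0 : ∀ x, 0 ≤ F x) {L : ℝ}
    (hL : ∀ τ : ℝ, 0 ≤ τ → Real.log (Vol (lin h F τ)) ≤ Real.log (Vol h) + τ * L) :
    ∃ a', HasDerivWithinAt (fun τ => Vol (lin h F τ)) a' (Ici 0) 0 ∧ a' ≤ Vol h * L := by
  have e0 : lin h F 0 = h := by
    funext x
    simp [lin]
  have hpos : ∀ τ : ℝ, 0 ≤ τ → 0 < Vol (lin h F τ) := by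
    intro τ hτ
    refine hV.trans_le (Vol_mono (fun u => ?_) (hcomp τ hτ).measure_lt_top.ne)
    simp only [lin]
    have := mul_nonneg hτ (hF0 u)
    linarith
  set ψ : ℝ → ℝ := fun τ => Real.log (Vol (lin h F τ)) with hψ
  have hψ0 : ψ 0 = Real.log (Vol h) := by simp only [hψ, e0]
  set D : ℝ → ℝ := fun τ => (ψ τ - ψ 0) / τ with hD
  -- concavity
  have hconc : ∀ τ₁ τ₂ : ℝ, 0 < τ₁ → τ₁ < τ₂ → D τ₂ ≤ D τ₁ := by
    intro τ₁ τ₂ h1 h2
    have hτ₂ : 0 < τ₂ := h1.trans h2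
    set s := τ₁ / τ₂ with hs
    have hs0 : 0 < s := by positivity
    have hs1 : s < 1 := by
      rw [hs, div_lt_one hτ₂]
      exact h2
    have hsτ : s * τ₂ = τ₁ := by
      rw [hs]
      field_simp
    have h1s : 0 < 1 - s := by linarith
    have e1 : lin h F τ₁ = fun u => (1 - s) * lin h F 0 u + (1 - (1 - s)) * lin h F τ₂ u := by
      funext u
      rw [← hsτ]
      simp only [lin]
      ring
    have hc := Vol_rpow_le (f₀ := lin h F 0) (f₁ := lin h F τ₂) (θ := 1 - s) h1s (by linarith)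
      (by
        rw [← e1]
        exact (hcomp τ₁ h1.le).measure_lt_top.ne)
      (hcomp 0 le_rfl).measure_lt_top.ne (hcomp τ₂ hτ₂.le).measure_lt_top.ne
    rw [← e1] at hc
    have hV0 := hpos 0 le_rfl
    have hV2 := hpos τ₂ hτ₂.le
    have hlog := Real.log_le_log (by positivity) hc
    rw [Real.log_mul (by positivity) (by positivity), Real.log_rpow hV0, Real.log_rpow hV2] at hlog
    have e3 : 1 - (1 - s) = s := by ring
    rw [e3] at hlog
    have h3 : s * (ψ τ₂ - ψ 0) ≤ ψ τ₁ - ψ 0 := by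
      simp only [hψ]
      linarith
    simp only [hD]
    rw [div_le_div_iff₀ hτ₂ h1]
    have h4 := mul_le_mul_of_nonneg_right h3 hτ₂.le
    have e5 : (ψ τ₂ - ψ 0) * τ₁ = s * (ψ τ₂ - ψ 0) * τ₂ := by
      calc (ψ τ₂ - ψ 0) * τ₁ = (ψ τ₂ - ψ 0) * (s * τ₂) := by rw [hsτ]
        _ = _ := by ring
    rw [e5]
    exact h4
  have hanti : AntitoneOn D (Ioi 0) := by
    intro a ha b hb hab
    rcases hab.eq_or_lt with rfl | hlt
    · exact le_rfl
    · exact hconc a b ha hlt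
  have hub : ∀ τ ∈ Ioi (0 : ℝ), D τ ≤ L := by
    intro τ hτ
    have hτ' : (0 : ℝ) < τ := hτ
    simp only [hD, hψ0]
    rw [div_le_iff₀ hτ']
    have := hL τ hτ'.le
    simp only [hψ]
    linarith
  have hbdd : BddAbove (D '' Ioi 0) := ⟨L, by
    rintro _ ⟨τ, hτ, rfl⟩
    exact hub τ hτ⟩
  have hT := hanti.tendsto_nhdsGT hbdd
  set L₀ := sSup (D '' Ioi 0) with hL₀
  have hL₀L : L₀ ≤ L := csSup_le ⟨_, ⟨1, by norm_num, rfl⟩⟩ (by
    rintro _ ⟨τ, hτ, rfl⟩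
    exact hub τ hτ)
  have hd1 : HasDerivWithinAt ψ L₀ (Ioi 0) 0 := by
    rw [hasDerivWithinAt_iff_tendsto_slope' (by simp)]
    refine hT.congr fun τ => ?_
    simp only [hD, slope_def_field, sub_zero]
  have hd2 : HasDerivWithinAt ψ L₀ (Ici 0) 0 := hasDerivWithinAt_Ioi_iff_Ici.1 hd1
  have hd3 := hd2.exp
  have e5 : Real.exp (ψ 0) = Vol h := by
    rw [hψ0, Real.exp_log hV]
  rw [e5] at hd3
  refine ⟨Vol h * L₀, ?_, mul_le_mul_of_nonneg_left hL₀L hV.le⟩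
  refine hd3.congr (fun τ hτ => ?_) ?_
  · simp only [hψ]
    rw [Real.exp_log (hpos τ hτ)]
  · simp only [hψ]
    rw [Real.exp_log (hpos 0 le_rfl)]

variable [Nonempty ι]

/-- The second variation inequality at a reflection-invariant convex body, against differences of
support functions, in terms of the volume polynomials. -/
theorem second_variation (hKc : IsCompact K) (hKv : Convex ℝ K) (hKu : ∀ i, ∀ x ∈ K, refl i x ∈ K)
    (hKi : (interior K).Nonempty) (hM₁c : IsCompact M₁) (hM₁v : Convex ℝ M₁)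
    (hM₁s : ∀ x ∈ M₁, -x ∈ M₁) (hM₂c : IsCompact M₂) (hM₂v : Convex ℝ M₂)
    (hM₂s : ∀ x ∈ M₂, -x ∈ M₂) (hh : IsSupportFn K h) (hg₁ : IsSupportFn M₁ g₁)
    (hg₂ : IsSupportFn M₂ g₂) :
    ∃ p₁ p₂ p₃ : Polynomial ℝ, p₁.natDegree ≤ Fintype.card ι ∧ p₂.natDegree ≤ Fintype.card ι ∧
      p₃.natDegree ≤ Fintype.card ι ∧
      (∀ τ : ℝ, 0 ≤ τ → (volume (K + τ • M₁)).toReal = p₁.eval τ) ∧
      (∀ τ : ℝ, 0 ≤ τ → (volume (K + τ • M₂)).toReal = p₂.eval τ) ∧
      (∀ τ : ℝ, 0 ≤ τ → (volume (K + τ • (M₁ + M₂))).toReal = p₃.eval τ) ∧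
      ∃ a', HasDerivWithinAt
          (fun τ : ℝ => (volume (wulff fun u => h u + τ * ((g₁ u - g₂ u) ^ 2 / h u))).toReal)
          a' (Ici 0) 0 ∧
        (volume K).toReal * (a' + 2 * (2 * p₁.coeff 2 + 2 * p₂.coeff 2 - p₃.coeff 2))
          ≤ (p₁.coeff 1 - p₂.coeff 1) ^ 2 := by
  obtain ⟨c, R, η, H, A, B, ad⟩ := exists_AD hKc hKv hKu hKi hM₁c hM₁s hM₂c hM₂s hh hg₁ hg₂
  obtain ⟨Q₁, Q₂, Q₃, d1, d2, d3, v1, v2, v3, hmain⟩ := ad.main
  have hsum : IsSupportFn (M₁ + M₂) (fun x => g₁ x + g₂ x) := by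
    have := isSupportFn_add hM₁c hM₂c hg₁ hg₂ (τ := 1) zero_le_one
    rw [one_smul] at this
    have e : lin g₁ g₂ 1 = fun x => g₁ x + g₂ x := by
      funext x
      simp [lin]
    rwa [e] at this
  have hW : wulff h = K := wulff_eq_of_isSupportFn hKc.isClosed hKv hh
  have hV : Vol h = (volume K).toReal := by rw [Vol, hW]
  refine ⟨Q₁, Q₂, Q₃, d1, d2, d3, fun τ hτ => ?_, fun τ hτ => ?_, fun τ hτ => ?_, ?_⟩
  · rw [volume_add_eq hKc hM₁c hKv hM₁v hh hg₁ hτ, v1 τ hτ]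
  · rw [volume_add_eq hKc hM₂c hKv hM₂v hh hg₂ hτ, v2 τ hτ]
  · rw [volume_add_eq hKc (hM₁c.add hM₂c) hKv (hM₁v.add hM₂v) hh hsum hτ, v3 τ hτ]
  · have hF0 : ∀ y, 0 ≤ Fl h g₁ g₂ y := fun y => div_nonneg (by positivity) (ad.h_nonneg y)
    obtain ⟨a', ha1, ha2⟩ := exists_right_deriv ad.Vpos (fun τ hτ => ad.compactF hτ) hF0
      (L := ((Q₁.coeff 1 - Q₂.coeff 1) ^ 2 / Vol h
          - 2 * (2 * Q₁.coeff 2 + 2 * Q₂.coeff 2 - Q₃.coeff 2)) / Vol h) hmain
    refine ⟨a', ha1, ?_⟩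
    rw [← hV]
    have hVp := ad.Vpos
    have e : Vol h * (((Q₁.coeff 1 - Q₂.coeff 1) ^ 2 / Vol h
          - 2 * (2 * Q₁.coeff 2 + 2 * Q₂.coeff 2 - Q₃.coeff 2)) / Vol h)
        = (Q₁.coeff 1 - Q₂.coeff 1) ^ 2 / Vol h
          - 2 * (2 * Q₁.coeff 2 + 2 * Q₂.coeff 2 - Q₃.coeff 2) := by
      field_simp
    rw [e] at ha2
    have h3 : a' + 2 * (2 * Q₁.coeff 2 + 2 * Q₂.coeff 2 - Q₃.coeff 2)
        ≤ (Q₁.coeff 1 - Q₂.coeff 1) ^ 2 / Vol h := by linarith
    have h4 := mul_le_mul_of_nonneg_left h3 hVp.le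
    have e2 : Vol h * ((Q₁.coeff 1 - Q₂.coeff 1) ^ 2 / Vol h) = (Q₁.coeff 1 - Q₂.coeff 1) ^ 2 := by
      field_simp
    rw [e2] at h4
    exact h4

omit [DecidableEq ι] [Nonempty ι] in
lemma isSupportFn_zero : IsSupportFn ({0} : Set (ι → ℝ)) (fun _ => (0 : ℝ)) := by
  intro u
  simp only [Set.image_singleton, zero_dotProduct]
  exact isLUB_singleton

omit [Fintype ι] [DecidableEq ι] [Nonempty ι] in
lemma poly_eq_of_ray {p q : Polynomial ℝ} (h : ∀ τ : ℝ, 0 ≤ τ → p.eval τ = q.eval τ) : p = q := by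
  apply Polynomial.eq_of_infinite_eval_eq
  exact (Set.Ici_infinite (0 : ℝ)).mono fun τ hτ => h τ hτ

/-- The second variation inequality at a reflection-invariant convex body against a comparison
body. -/
theorem second_variation_single (hKc : IsCompact K) (hKv : Convex ℝ K)
    (hKu : ∀ i, ∀ x ∈ K, refl i x ∈ K) (hKi : (interior K).Nonempty) (hM₁c : IsCompact M₁)
    (hM₁v : Convex ℝ M₁) (hM₁s : ∀ x ∈ M₁, -x ∈ M₁) (hh : IsSupportFn K h)
    (hg₁ : IsSupportFn M₁ g₁) :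
    ∃ p : Polynomial ℝ, p.natDegree ≤ Fintype.card ι ∧
      (∀ τ : ℝ, 0 ≤ τ → (volume (K + τ • M₁)).toReal = p.eval τ) ∧
      ∃ a', HasDerivWithinAt
          (fun τ : ℝ => (volume (wulff fun u => h u + τ * (g₁ u ^ 2 / h u))).toReal) a' (Ici 0) 0 ∧
        (volume K).toReal * (a' + 2 * p.coeff 2) ≤ p.coeff 1 ^ 2 := by
  obtain ⟨p₁, p₂, p₃, d1, -, -, v1, v2, v3, a', ha1, ha2⟩ := second_variation hKc hKv hKu hKi hM₁c
    hM₁v hM₁s (isCompact_singleton (x := (0 : ι → ℝ))) (convex_singleton _) (by simp) hh hg₁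
    isSupportFn_zero
  have e0 : ∀ τ : ℝ, K + τ • ({0} : Set (ι → ℝ)) = K := by
    intro τ
    simp
  have e1 : ∀ τ : ℝ, K + τ • (M₁ + ({0} : Set (ι → ℝ))) = K + τ • M₁ := by
    intro τ
    simp
  have h2 : p₂ = Polynomial.C (volume K).toReal := by
    apply poly_eq_of_ray
    intro τ hτ
    rw [← v2 τ hτ, e0]
    simp
  have h3 : p₃ = p₁ := by
    apply poly_eq_of_ray
    intro τ hτ
    rw [← v3 τ hτ, e1, v1 τ hτ]
  subst h3
  have c1 : p₂.coeff 1 = 0 := by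
    rw [h2, Polynomial.coeff_C]
    simp
  have c2 : p₂.coeff 2 = 0 := by
    rw [h2, Polynomial.coeff_C]
    simp
  refine ⟨p₃, d1, v1, a', ?_, ?_⟩
  · simpa using ha1
  · rw [c1, c2] at ha2
    have e : 2 * p₃.coeff 2 + 2 * 0 - p₃.coeff 2 = p₃.coeff 2 := by ring
    rw [e, sub_zero] at ha2
    exact ha2

end Vale.Agent.Lib.P227L
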